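import Vale.Agent.P297A41.Fin
import Vale.Agent.P297A90.Lift
import Vale.Agent.P297A13.Prj
import Vale.Agent.P297A13.Poly
import Vale.Agent.P297A76.Pts
import Vale.Agent.P297A59.Var
import Vale.Agent.P297A93.Vap

open CategoryTheory AlgebraicGeometry Vale.Agent.P297A
open Vale.Agent.P297M (IsProjective pg ClosedPt Curve FiniteDiv IrrZero cl CH0)

namespace Vale.Agent.Results.P297.ALiteral

/-- **Bloch's conjecture.** Let `S` be a connected scheme, smooth of relative dimension two and
projective over `ℂ`, with `p_g(S) = h^0(S, ω_S) = 0`. The complex points are the closed points;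
the divisors of the rational functions on the normalizations of the curves in `S` are finite sums;
for every base point an Albanese morphism exists, and for every Albanese morphism the Albanese
homomorphism is a bijection from `CH_0(S)^0` onto `Alb(S)(ℂ)`; if also `H^1(S, O_S) = 0`, any two
closed points are rationally equivalent and the degree is an isomorphism. -/
theorem result (S : Sch) [SmoothOfRelativeDimension 2 S.hom] [ConnectedSpace S.left]
    (hf : IsProjective S.hom) (hg : pg S.hom = 0) :
    Nonempty (Pt S) ∧ Function.Bijective (pt (X := S)) ∧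
    (∀ C : Curve S.left, ∃ _ : IsLocallyNoetherian C.Nor, FiniteDiv C.Nor) ∧
    (∀ x₀ : Pt S, (∃ (A : AbVar) (a : S ⟶ A.X), IsAlb x₀ A a) ∧
      ∀ (A : AbVar) (a : S ⟶ A.X), IsAlb x₀ A a → AlbIso cls (img a)) ∧
    (IrrZero S.left → (∀ x y : ClosedPt S.left, cl x = cl y) ∧
      ∃ deg : CH0 S.left ≃+ ℤ, ∀ x : ClosedPt S.left, deg (cl x) = 1) :=
  final lift90 (prj13 lift90 vap pts) poly (sch lift90 poly poly2 (var vap pts)) S hf hg

end Vale.Agent.Results.P297.ALiteral
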